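import Vale.Agent.P284.H924.AB
import Vale.Agent.P284.H747.Spec

/-! # P284, package AB (helper924): the specification -/

namespace Vale.Agent.P284.H924

open Vale.Agent.P299.H863

theorem AB : H747.Spec_AB := by
  intro S _ _ D P₀ P₁ P₂ J hD h0 h1 h2 h01 h02 h12 hd0 hd1 hdd hdd1 hJ hc hreg N ℓ lam mu K hlam hmu
    hest W hWf hW0 hW
  exact ab ⟨hD, h0, h1, h2, h01, h02, h12, hd0, hd1, hdd, hdd1⟩ hJ hc hreg ℓ hlam hmu hest W hWf
    hW0 hW

end Vale.Agent.P284.H924
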