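import Vale.Agent.P284.H747.Spec
import Vale.Agent.P272.K.AMP.Iface
import Vale.Agent.P272.K.C2.PosLin

/-! # P284, package VOL (helper924): from nef and big to good metrics -/

open scoped Manifold ContDiff ComplexOrder ComplexConjugate Topology
open MeasureTheory Set Filter

noncomputable section

namespace Vale.Agent.P284.H924

open Vale.Agent.P272.K Vale.Agent.P272.K.INT Vale.Agent.P272.K.AMP

section poly

variable {n : ℕ} {X : Type*} [TopologicalSpace X] [ChartedSpace (Cm n) X]
  [IsManifold 𝓘(ℂ, Cm n) ω X] [T2Space X] [CompactSpace X]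
  {w : Chart n X → Cm n → Matrix (Fin n) (Fin n) ℂ} {φ : Chart n X → Cm n → ℝ}

/-- `(K_X + t [w])^n` is a polynomial in `t` -/
theorem PP_poly (hφ : IsCanonicalMetric φ) (hw : IsClosedForm w) :
    ∃ q : Polynomial ℝ, ∀ t, PP φ w t = q.eval t := by
  have hD : ∀ t : ℝ, IsDensity (fun e z => (cHess (φ e) z + (t : ℂ) • w e z).det.re) := fun t =>
    ((isClosedForm_canonical hφ).add (hw.smul (t : ℂ))).isDensity
  refine ⟨∑ j : Fin (n + 1), Lagrange.basis (Finset.univ : Finset (Fin (n + 1)))
    (fun i => (i : ℝ)) j * Polynomial.C (PP φ w j), fun t => ?_⟩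
  rw [Polynomial.eval_finsetSum]
  simp only [Polynomial.eval_mul, Polynomial.eval_C]
  have : ∀ j : Fin (n + 1), lag n j t * PP φ w j = intX fun e z => lag n j t *
      (cHess (φ e) z + (((j : ℕ) : ℝ) : ℂ) • w e z).det.re := by
    intro j
    exact (intX_const_mul _ _).symm
  change PP φ w t = ∑ j : Fin (n + 1), lag n j t * PP φ w j
  simp only [this]
  have hj : ∀ j : Fin (n + 1), IsDensity fun e z => lag n j t *
      (cHess (φ e) z + (((j : ℕ) : ℝ) : ℂ) • w e z).det.re := fun j => (hD _).const_mul _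
  rw [← intX_sum _ fun j _ => hj j]
  exact intX_congr fun e x _ => (isPolyN_det (cHess (φ e) (e x)) (w e (e x))).eq_sum t

end poly

/-- smallness: the choice of `t` -/
theorem exists_small (q : Polynomial ℝ) (h0 : 0 < q.eval 0) {ε : ℝ} (hε : 0 < ε) :
    ∃ t : ℝ, 0 < t ∧ q.eval 0 / 2 ≤ q.eval (2 * t) ∧
      4 * t * (Polynomial.derivative q).eval (2 * t) ≤ ε := by
  have c1 : Continuous fun t : ℝ => q.eval (2 * t) := q.continuous.comp (by fun_prop)
  have c2 : Continuous fun t : ℝ => 4 * t * (Polynomial.derivative q).eval (2 * t) :=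
    (by fun_prop : Continuous fun t : ℝ => 4 * t).mul
      ((Polynomial.derivative q).continuous.comp (by fun_prop))
  have e1 : ∀ᶠ t in 𝓝[>] (0 : ℝ), q.eval 0 / 2 < q.eval (2 * t) := by
    have := c1.tendsto 0
    simp only [mul_zero] at this
    exact (this.eventually (lt_mem_nhds (by linarith : q.eval 0 / 2 < q.eval 0))).filter_mono
      nhdsWithin_le_nhds
  have e2 : ∀ᶠ t in 𝓝[>] (0 : ℝ), 4 * t * (Polynomial.derivative q).eval (2 * t) < ε := by
    have := c2.tendsto 0
    simp only [mul_zero, zero_mul] at this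
    exact (this.eventually (gt_mem_nhds hε)).filter_mono nhdsWithin_le_nhds
  have e3 : ∀ᶠ t in 𝓝[>] (0 : ℝ), 0 < t := eventually_mem_nhdsWithin
  obtain ⟨t, h1, h2, h3⟩ := (e1.and (e2.and e3)).exists
  exact ⟨t, h3, h1.le, h2.le⟩

theorem VOL : H747.Spec_VOL := by
  intro n hn X _ _ _ _ _ _ w₀ hw₀ hnef φ₀ hφ₀ hpos
  have hwc := IsKahler.isClosedForm hw₀
  obtain ⟨q, hq⟩ := PP_poly hφ₀ hwc
  have hq0 : 0 < q.eval 0 := by
    rw [← hq]
    have : PP φ₀ w₀ 0 = intX (fun e z => (cHess (φ₀ e) z).det.re) := by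
      refine intX_congr fun e x _ => ?_
      simp
    rw [this]
    exact hpos
  refine ⟨q.eval 0 / 2, by positivity, fun ε hε => ?_⟩
  obtain ⟨t, ht, ht1, ht2⟩ := exists_small q hq0 hε
  obtain ⟨φ, hφ, hcurv⟩ := hnef t ht
  simp only [zero_add] at hcurv
  set w : Chart n X → Cm n → Matrix (Fin n) (Fin n) ℂ :=
    fun e z => cHess (φ e) z + ((2 * t : ℝ) : ℂ) • w₀ e z with hw
  have htw : ∀ e x, At e x → ((t : ℂ) • w₀ e (e x)).PosDef := fun e x hx =>
    (hw₀.posDef e x hx).smul (by exact_mod_cast ht)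
  have hwpos : ∀ e x, At e x → (w e (e x)).PosDef := by
    intro e x hx
    have h1 := Matrix.PosDef.posSemidef_add (hcurv e x hx) (htw e x hx)
    have h2 : w e (e x) = (cHess (φ e) (e x) + (t : ℂ) • w₀ e (e x)) + (t : ℂ) • w₀ e (e x) := by
      rw [hw]
      simp only
      rw [add_assoc, ← add_smul]
      congr 2
      push_cast
      ring
    rw [h2]
    exact h1
  have hcf : IsClosedForm w := (isClosedForm_canonical hφ).add (hwc.smul _)
  have hwK : IsKahler w :=
    { smooth := hcf.smooth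
      posDef := hwpos
      change := hcf.form
      closed := fun e x h i j k => hcf.closed e x h k i j }
  have hwH : IsHermitian w := hwK.toIsHermitian
  have htr : ∀ e x, At e x → trX w w₀ x = ((w e (e x))⁻¹ * w₀ e (e x)).trace.re := fun e x hx =>
    trX_eq hwH hw₀.toIsHermitian.isForm hx
  have hP : ∀ s, PP φ w₀ s = q.eval s := fun s => by rw [← hq s, PP_eq hφ hφ₀ hwc]
  refine ⟨φ, w, fun x => 4 * t * trX w w₀ x, hφ, hwK, ?_, ?_, ?_, ?_, ?_⟩
  · exact sm_const_mul _ (smoothFn_trX hwH hw₀.toIsHermitian.isForm hw₀.smooth)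
  · intro x
    have hx := at_chartAt (n := n) x
    have h1 : 0 ≤ trX w w₀ x := by
      rw [htr _ x hx]
      have := C2.trace_mul_nonneg (hwpos _ x hx).inv.posSemidef (hw₀.posDef _ x hx).posSemidef
      rw [Complex.le_def] at this
      exact this.1
    positivity
  · intro e x hx
    have hw0 := hw₀.posDef e x hx
    refine ⟨?_, ?_, fun hf => ?_⟩
    · have : w e (e x) - cHess (φ e) (e x) = ((2 * t : ℝ) : ℂ) • w₀ e (e x) := by
        rw [hw]; simp
      rw [this]
      exact (hw0.smul (by exact_mod_cast (by positivity : (0 : ℝ) < 2 * t))).posSemidef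
    · have h1 := (hcurv e x hx).add (hcurv e x hx)
      have h2 : w e (e x) + cHess (φ e) (e x) = (cHess (φ e) (e x) + (t : ℂ) • w₀ e (e x))
          + (cHess (φ e) (e x) + (t : ℂ) • w₀ e (e x)) := by
        rw [hw]
        simp only
        push_cast
        module
      rw [h2]
      exact h1
    · set T : ℝ := ((w e (e x))⁻¹ * w₀ e (e x)).trace.re with hT
      have hT1 : 4 * t * T ≤ 1 := by
        rw [hT, ← htr e x hx]
        exact hf
      have hTc : ((w e (e x))⁻¹ * w₀ e (e x)).trace = ((T : ℝ) : ℂ) := by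
        have := C2.trace_mul_nonneg (hwpos e x hx).inv.posSemidef hw0.posSemidef
        rw [Complex.le_def] at this
        exact Complex.ext (by simp [hT]) (by simpa using this.2.symm)
      have h1 := C2.trace_smul_sub_posSemidef (hwpos e x hx) hw0.posSemidef
      rw [hTc] at h1
      have h2 : (((4 * t : ℝ) : ℂ) • ((T : ℂ) • w e (e x) - w₀ e (e x))).PosSemidef :=
        h1.smul (by exact_mod_cast (by positivity : (0 : ℝ) ≤ 4 * t))
      have h3 : (((1 - 4 * t * T : ℝ) : ℂ) • w e (e x)).PosSemidef :=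
        (hwpos e x hx).posSemidef.smul (by exact_mod_cast (by linarith : (0 : ℝ) ≤ 1 - 4 * t * T))
      have h4 := h3.add h2
      have h5 : 2 • cHess (φ e) (e x) - w e (e x) =
          ((1 - 4 * t * T : ℝ) : ℂ) • w e (e x)
            + ((4 * t : ℝ) : ℂ) • ((T : ℂ) • w e (e x) - w₀ e (e x)) := by
        have h6 : w e (e x) = cHess (φ e) (e x) + ((2 * t : ℝ) : ℂ) • w₀ e (e x) := rfl
        rw [h6]
        push_cast
        module
      rw [h5]
      exact h4
  · have : intX (fun e z => (w e z).det.re) = PP φ w₀ (2 * t) := rfl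
    rw [this, hP]
    exact ht1
  · have h1 : intX (fun e z => 4 * t * trX w w₀ (e.symm z) * (w e z).det.re) =
        4 * t * intX (fun e z => ((cHess (φ e) z + ((2 * t : ℝ) : ℂ) • w₀ e z)⁻¹ * w₀ e z).trace.re *
          (cHess (φ e) z + ((2 * t : ℝ) : ℂ) • w₀ e z).det.re) := by
      rw [← intX_const_mul]
      refine intX_congr fun e x hx => ?_
      rw [e.left_inv hx.2, htr e x hx]
      ring
    have h2 := PP_hasDerivAt' hφ hwc (t := 2 * t) hwpos
    have h3 : HasDerivAt (PP φ w₀) ((Polynomial.derivative q).eval (2 * t)) (2 * t) := by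
      have : PP φ w₀ = fun s => q.eval s := funext hP
      rw [this]
      exact q.hasDerivAt _
    rw [h1, h2.unique h3]
    exact ht2

end Vale.Agent.P284.H924
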